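import Vale.Agent.P058.RM.Main
import Vale.Agent.P058.RT.Model

/-! # Ramsey quadrilaterals with `|1 - 2p|^n1 = |1 - 2q|^n2` -/

namespace Vale.Agent.P058.RT

open Vale.Agent.P058 Vale.Agent.P058.Quad Vale.Agent.P058.RS Vale.Agent.P058.RM
open scoped RealInnerProductSpace

/-- `A B C D` on a sphere, `(1-p) A + p C = (1-q) B + q D`, `|1-2p|^n1 = |1-2q|^n2`, `0 < n1 ≤ n2`, and
`⟪C-A, D-B⟫ (1-2q) = θ (1-2p) |C-A|²` with `0 ≤ θ ≤ 1` (`θ = 0`: perpendicular diagonals, `θ = 1`: `BD` is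
a diameter). -/
theorem sol_mult {d : ℕ} (A B C D O : E d) (r p q : ℝ) (hA : dist A O = r) (hB : dist B O = r)
    (hC : dist C O = r) (hD : dist D O = r) (hq0 : 0 < q) (hq1 : q < 1)
    (hrel : (1 - p) • A + p • C = (1 - q) • B + q • D) (hAC : A ≠ C) (n1 n2 : ℕ) (h1 : 0 < n1)
    (h12 : n1 ≤ n2) (hcl : |1 - 2 * p| ^ n1 = |1 - 2 * q| ^ n2) (hq : 1 - 2 * q ≠ 0) (θ : ℝ)
    (hθ0 : 0 ≤ θ) (hθ1 : θ ≤ 1)
    (hang : ⟪C - A, D - B⟫ * (1 - 2 * q) = θ * (1 - 2 * p) * ‖C - A‖ ^ 2) :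
    SolModel ({A, B, C, D} : Set (E d)) := by
  have : NeZero n2 := ⟨by omega⟩
  have hW := power_of_point' A B C D O r p q hA hB hC hD hrel
  set α : ℝ := 1 - 2 * p with hα
  set β : ℝ := 1 - 2 * q with hβ
  have hPP := PP_pos n1 n2 α β h1
  have hPQ := PQ_pos n1 n2 α β h1
  set l1 : ℝ := Real.sqrt ((1 - θ) / PP n1 n2 α β) with hl1
  set l0 : ℝ := Real.sqrt (θ / PQ n1 n2 α β) with hl0
  have e1 : l1 ^ 2 * PP n1 n2 α β = 1 - θ := by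
    rw [hl1, Real.sq_sqrt (div_nonneg (by linarith) hPP.le)]; field_simp
  have e0 : l0 ^ 2 * PQ n1 n2 α β = θ := by
    rw [hl0, Real.sq_sqrt (div_nonneg hθ0 hPQ.le)]; field_simp
  have hsq := sum_sq_M n1 n2 α β l1 l0
  have hpr := sum_pr_M n1 n2 α β l1 l0
  rw [e1, e0, sub_add_cancel] at hsq
  rw [e0] at hpr
  have hτ : (transl (fun _ => ((1 : ZMod (n1 + n2)), (1 : ZMod n2))) : Equiv.Perm (OmM n1 n2)) ∈
      (∅ ∪ Set.range fun v : Bool → ZMod (n1 + n2) × ZMod n2 => transl v :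
        Set (Equiv.Perm (OmM n1 n2))) := Or.inr ⟨_, rfl⟩
  have hstep := vM_step n1 n2 α β l1 l0 hq h1 h12 hcl
  refine solModel_of_configP _ (ach_transl (Lam := Bool) (S := ZMod (n1 + n2) × ZMod n2))
    A B C D p q hq0 hq1 (vM n1 n2 α β l1 l0)
    (sb (vM n1 n2 α β l1 l0) (fAM n1 n2) (fBM n1 n2) α β)
    (sc (vM n1 n2 α β l1 l0) (fAM n1 n2))
    (sd (vM n1 n2 α β l1 l0) (fAM n1 n2) (fBM n1 n2) α β)
    (reach_sb _ _ hτ _ _ _ _ _ hstep) (reach_sc _ _ _) (reach_sd _ _ hτ _ _ _ _ _ hstep)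
    (fun ω => step_rel _ _ _ p q hq ω) ?_ hrel hAC ?_ hW
  · rw [hsq]; exact one_pos
  · rw [hsq, hpr, mul_one]
    field_simp
    linear_combination hang

end Vale.Agent.P058.RT
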